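import Vale.Agent.P004E.H156.Four

/-!
# P004: Fourier analysis of the main window with the weight `x²`
-/

open Real MeasureTheory Set
open scoped FourierTransform

namespace P004E.Two

open P004 (ηf)
open P004E.H156 (gF gF_spec Pf Pe Pf_smooth Pe_smooth Pf_two_zero Pe_iter Pe_bd Pf_bd ind_int
  ind_int_eq)

/-- `t (1 - ηf(2t/3)) e^{-t}` -/
noncomputable def Vf (t : ℝ) : ℝ := t * ((1 - ηf (t / (3 / 2))) * Real.exp (-1 * t))

/-- the main window, scaled -/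
noncomputable def Kw (ε t : ℝ) : ℝ := Pe ε t * Vf t

lemma Vf_smooth (n : ℕ) : ContDiff ℝ n Vf := contDiff_id.mul (H156.Vf_smooth n)

lemma Kw_smooth (ε : ℝ) (n : ℕ) : ContDiff ℝ n (Kw ε) := (Pe_smooth ε n).mul (Vf_smooth n)

lemma Kw_zero {ε : ℝ} (hε : 0 < ε) {t : ℝ} (ht : t < ε ∨ 3 < t) : Kw ε t = 0 := by
  unfold Kw
  rcases ht with h | h
  · unfold Pe Pf
    rw [P004.Wf.eta_zero (t := ε⁻¹ * t) (by
      rw [inv_mul_le_iff₀ hε]; linarith)]
    simp
  · unfold Vf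
    rw [P004.Wf.eta_one (t := t / (3 / 2)) (by
      rw [le_div_iff₀ (by norm_num)]; linarith)]
    simp

lemma Kw_iter_zero {ε : ℝ} (hε : 0 < ε) (i : ℕ) {t : ℝ} (ht : t < ε ∨ 3 < t) :
    iteratedDeriv i (Kw ε) t = 0 := by
  have hz : Kw ε =ᶠ[nhds t] fun _ => (0 : ℝ) := by
    rcases ht with h | h
    · filter_upwards [Iio_mem_nhds h] with y hy
      exact Kw_zero hε (Or.inl hy)
    · filter_upwards [Ioi_mem_nhds h] with y hy
      exact Kw_zero hε (Or.inr hy)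
  rw [hz.iteratedDeriv_eq, iteratedDeriv_const]
  simp

lemma Vf_bd (n : ℕ) : ∃ C : ℝ, 1 ≤ C ∧ ∀ k ≤ n, ∀ t, 0 ≤ t → t ≤ 3 →
    |iteratedDeriv k Vf t| ≤ C := by
  induction n with
  | zero =>
    have hc : Continuous (iteratedDeriv 0 Vf) := (Vf_smooth 0).continuous_iteratedDeriv 0 le_rfl
    obtain ⟨C, hC⟩ := (isCompact_Icc (a := (0 : ℝ)) (b := 3)).exists_bound_of_continuousOn
      hc.continuousOn
    refine ⟨max C 1, le_max_right _ _, fun k hk t h0 h3 => ?_⟩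
    obtain rfl : k = 0 := by omega
    exact (hC t ⟨h0, h3⟩).trans (le_max_left _ _)
  | succ n ih =>
    obtain ⟨C, h1, h2⟩ := ih
    have hc : Continuous (iteratedDeriv (n + 1) Vf) :=
      (Vf_smooth (n + 1)).continuous_iteratedDeriv (n + 1) le_rfl
    obtain ⟨C', hC'⟩ := (isCompact_Icc (a := (0 : ℝ)) (b := 3)).exists_bound_of_continuousOn
      hc.continuousOn
    refine ⟨max C C', le_max_of_le_left h1, fun k hk t h0 h3 => ?_⟩
    rcases Nat.lt_or_ge k (n + 1) with h | h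
    · exact (h2 k (by omega) t h0 h3).trans (le_max_left _ _)
    · obtain rfl : k = n + 1 := by omega
      exact (hC' t ⟨h0, h3⟩).trans (le_max_right _ _)

/-- derivatives at the scale `ε` -/
lemma Kw_bd (n : ℕ) : ∃ C : ℝ, 1 ≤ C ∧ ∀ ε : ℝ, 0 < ε → ε ≤ 1 → ∀ i ≤ n, ∀ t,
    |iteratedDeriv i (Kw ε) t| ≤ C * ε⁻¹ ^ i * (Icc (0 : ℝ) 3).indicator (fun _ => 1) t := by
  obtain ⟨CP, hP1, hP⟩ := Pf_bd n
  obtain ⟨CV, hV1, hV⟩ := Vf_bd n
  refine ⟨2 ^ n * ((3 + CP) * CV), ?_, fun ε hε hε1 i hi t => ?_⟩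
  · have : (1 : ℝ) ≤ 2 ^ n := one_le_pow₀ (by norm_num)
    have h2 : 1 ≤ (3 + CP) * CV := by nlinarith
    nlinarith
  have hεi : 1 ≤ ε⁻¹ := (one_le_inv₀ hε).2 hε1
  by_cases ht : t ∈ Icc (0 : ℝ) 3
  · rw [indicator_of_mem ht, mul_one]
    refine P004.Wf.mul_bd (Pe_smooth ε n) (Vf_smooth n) hε (by linarith) (by linarith) t
      (fun k hk => ?_) (fun k hk => ?_) i hi
    · rcases Nat.eq_zero_or_pos k with rfl | hk1
      · rw [iteratedDeriv_zero, pow_zero, mul_one]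
        have := Pe_bd hε ht.1 ht.2
        linarith
      · rw [Pe_iter, abs_mul, abs_mul, abs_of_pos hε, abs_of_pos (by positivity)]
        have h3 := hP k hk hk1 (ε⁻¹ * t)
        calc ε * (ε⁻¹ ^ k * |iteratedDeriv k Pf (ε⁻¹ * t)|) ≤ 1 * (ε⁻¹ ^ k * (3 + CP)) := by
              gcongr
              linarith
          _ = _ := by ring
    · have h3 := hV k hk t ht.1 ht.2
      calc |iteratedDeriv k Vf t| ≤ CV * 1 := by rw [mul_one]; exact h3
        _ ≤ CV * ε⁻¹ ^ k := by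
            gcongr
            exact one_le_pow₀ hεi
  · rw [indicator_of_notMem ht, mul_zero]
    have h3 : t < ε ∨ 3 < t := by
      rw [mem_Icc, not_and_or, not_le, not_le] at ht
      rcases ht with h | h
      · exact Or.inl (h.trans hε)
      · exact Or.inr h
    rw [Kw_iter_zero hε i h3, abs_zero]

lemma Kw_int {ε : ℝ} (hε : 0 < ε) (hε1 : ε ≤ 1) (i : ℕ) : Integrable (iteratedDeriv i (Kw ε)) := by
  obtain ⟨C, -, hC⟩ := Kw_bd i
  refine Integrable.mono' (ind_int.const_mul (C * ε⁻¹ ^ i)) ?_ ?_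
  · exact ((Kw_smooth ε i).continuous_iteratedDeriv i le_rfl).aestronglyMeasurable
  · exact Filter.Eventually.of_forall fun t => by
      rw [Real.norm_eq_abs]
      exact hC ε hε hε1 i le_rfl t

lemma Kw_int_bd (n : ℕ) : ∃ C : ℝ, 1 ≤ C ∧ ∀ ε : ℝ, 0 < ε → ε ≤ 1 → ∀ i ≤ n,
    ∫ t, |iteratedDeriv i (Kw ε) t| ≤ C * ε⁻¹ ^ i := by
  obtain ⟨C, hC1, hC⟩ := Kw_bd n
  refine ⟨3 * C, by linarith, fun ε hε hε1 i hi => ?_⟩
  calc ∫ t, |iteratedDeriv i (Kw ε) t|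
      ≤ ∫ t, C * ε⁻¹ ^ i * (Icc (0 : ℝ) 3).indicator (fun _ => 1) t :=
        integral_mono (Kw_int hε hε1 i).abs (ind_int.const_mul _) (hC ε hε hε1 i hi)
    _ = 3 * C * ε⁻¹ ^ i := by
        rw [integral_const_mul, ind_int_eq]
        ring

/-- the second derivative has a bounded integral -/
lemma Kw_two : ∃ C : ℝ, 1 ≤ C ∧ ∀ ε : ℝ, 0 < ε → ε ≤ 1 →
    ∫ t, |iteratedDeriv 2 (Kw ε) t| ≤ C := by
  obtain ⟨CP, hP1, hP⟩ := Pf_bd 2
  obtain ⟨CV, hV1, hV⟩ := Vf_bd 2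
  refine ⟨3 * ((3 + 2 * CP) * CV) + CV * (2 * CP), by nlinarith, fun ε hε hε1 => ?_⟩
  have hεi : 0 < ε⁻¹ := inv_pos.2 hε
  have hpt : ∀ t, |iteratedDeriv 2 (Kw ε) t| ≤
      (3 + 2 * CP) * CV * (Icc (0 : ℝ) 3).indicator (fun _ => 1) t +
      CV * (ε⁻¹ * (CP * (Icc (0 : ℝ) 2).indicator (fun _ => 1) (ε⁻¹ * t))) := by
    intro t
    have hind : ∀ s : ℝ, 0 ≤ (Icc (0 : ℝ) 2).indicator (fun _ => (1 : ℝ)) s := fun s =>
      indicator_nonneg (fun _ _ => zero_le_one) s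
    by_cases ht : t ∈ Icc (0 : ℝ) 3
    · rw [indicator_of_mem ht, mul_one]
      have h0 : iteratedDeriv 2 (Kw ε) t = ∑ l ∈ Finset.range (2 + 1),
          (Nat.choose 2 l : ℝ) * iteratedDeriv l (Pe ε) t * iteratedDeriv (2 - l) Vf t :=
        iteratedDeriv_mul (Pe_smooth ε 2).contDiffAt (Vf_smooth 2).contDiffAt
      rw [h0]
      simp only [Finset.sum_range_succ, Finset.sum_range_zero, zero_add]
      have c0 : (Nat.choose 2 0 : ℝ) = 1 := by norm_num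
      have c1 : (Nat.choose 2 1 : ℝ) = 2 := by norm_num
      have c2 : (Nat.choose 2 2 : ℝ) = 1 := by norm_num
      rw [c0, c1, c2, one_mul, one_mul]
      have a0 : |iteratedDeriv 0 (Pe ε) t| ≤ 3 := by
        rw [iteratedDeriv_zero]; exact Pe_bd hε ht.1 ht.2
      have a1 : |iteratedDeriv 1 (Pe ε) t| ≤ CP := by
        rw [Pe_iter, pow_one, ← mul_assoc, mul_inv_cancel₀ hε.ne', one_mul]
        exact hP 1 (by norm_num) le_rfl _
      have a2 : |iteratedDeriv 2 (Pe ε) t| ≤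
          ε⁻¹ * (CP * (Icc (0 : ℝ) 2).indicator (fun _ => 1) (ε⁻¹ * t)) := by
        rw [Pe_iter]
        have e : ε * (ε⁻¹ ^ 2 * iteratedDeriv 2 Pf (ε⁻¹ * t)) =
            ε⁻¹ * iteratedDeriv 2 Pf (ε⁻¹ * t) := by
          field_simp
        rw [e, abs_mul, abs_of_pos hεi]
        refine mul_le_mul_of_nonneg_left ?_ hεi.le
        by_cases hs : ε⁻¹ * t ∈ Icc (0 : ℝ) 2
        · rw [indicator_of_mem hs, mul_one]
          exact hP 2 le_rfl (by norm_num) _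
        · rw [indicator_of_notMem hs, mul_zero, Pf_two_zero, abs_zero]
          right
          by_contra hcon
          exact hs ⟨by have := ht.1; positivity, not_lt.1 hcon⟩
      have b0 := hV 2 le_rfl t ht.1 ht.2
      have b1 := hV 1 (by norm_num) t ht.1 ht.2
      have b2 := hV 0 (by norm_num) t ht.1 ht.2
      have hR : 0 ≤ ε⁻¹ * (CP * (Icc (0 : ℝ) 2).indicator (fun _ => 1) (ε⁻¹ * t)) := by
        have := hind (ε⁻¹ * t)
        positivity
      have m0 : |iteratedDeriv 0 (Pe ε) t * iteratedDeriv (2 - 0) Vf t| ≤ 3 * CV := by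
        rw [abs_mul]; exact mul_le_mul a0 b0 (abs_nonneg _) (by norm_num)
      have m1 : |2 * iteratedDeriv 1 (Pe ε) t * iteratedDeriv (2 - 1) Vf t| ≤ 2 * CP * CV := by
        rw [abs_mul, abs_mul, abs_of_pos (by norm_num : (0 : ℝ) < 2)]
        have : 2 * |iteratedDeriv 1 (Pe ε) t| ≤ 2 * CP := by linarith
        exact mul_le_mul this b1 (abs_nonneg _) (by linarith)
      have m2 : |iteratedDeriv 2 (Pe ε) t * iteratedDeriv (2 - 2) Vf t| ≤
          (ε⁻¹ * (CP * (Icc (0 : ℝ) 2).indicator (fun _ => 1) (ε⁻¹ * t))) * CV := by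
        rw [abs_mul]; exact mul_le_mul a2 b2 (abs_nonneg _) hR
      calc _ ≤ |iteratedDeriv 0 (Pe ε) t * iteratedDeriv (2 - 0) Vf t| +
            |2 * iteratedDeriv 1 (Pe ε) t * iteratedDeriv (2 - 1) Vf t| +
            |iteratedDeriv 2 (Pe ε) t * iteratedDeriv (2 - 2) Vf t| :=
            abs_add_three _ _ _
        _ ≤ 3 * CV + 2 * CP * CV +
            (ε⁻¹ * (CP * (Icc (0 : ℝ) 2).indicator (fun _ => 1) (ε⁻¹ * t))) * CV := by
            linarith
        _ = _ := by ring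
    · rw [indicator_of_notMem ht]
      have h3 : t < ε ∨ 3 < t := by
        rw [mem_Icc, not_and_or, not_le, not_le] at ht
        rcases ht with h | h
        · exact Or.inl (h.trans hε)
        · exact Or.inr h
      rw [Kw_iter_zero hε 2 h3, abs_zero]
      have := hind (ε⁻¹ * t)
      positivity
  have hi2 : Integrable (fun t => (Icc (0 : ℝ) 2).indicator (fun _ => (1 : ℝ)) t) := by
    rw [integrable_indicator_iff measurableSet_Icc]
    exact integrableOn_const (by simp)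
  have hi3 : Integrable (fun t => (Icc (0 : ℝ) 2).indicator (fun _ => (1 : ℝ)) (ε⁻¹ * t)) :=
    hi2.comp_mul_left' hεi.ne'
  have he3 : ∫ t, (Icc (0 : ℝ) 2).indicator (fun _ => (1 : ℝ)) (ε⁻¹ * t) = ε * 2 := by
    rw [MeasureTheory.Measure.integral_comp_mul_left
      (fun t => (Icc (0 : ℝ) 2).indicator (fun _ => (1 : ℝ)) t) ε⁻¹, inv_inv,
      abs_of_pos hε, integral_indicator measurableSet_Icc, setIntegral_const]
    simp
  calc ∫ t, |iteratedDeriv 2 (Kw ε) t|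
      ≤ ∫ t, ((3 + 2 * CP) * CV * (Icc (0 : ℝ) 3).indicator (fun _ => 1) t +
        CV * (ε⁻¹ * (CP * (Icc (0 : ℝ) 2).indicator (fun _ => 1) (ε⁻¹ * t)))) :=
        integral_mono (Kw_int hε hε1 2).abs
          ((ind_int.const_mul _).add (((hi3.const_mul _).const_mul _).const_mul _)) hpt
    _ = (3 + 2 * CP) * CV * 3 + CV * (ε⁻¹ * (CP * (ε * 2))) := by
        rw [integral_add (ind_int.const_mul _) (((hi3.const_mul _).const_mul _).const_mul _),
          integral_const_mul, integral_const_mul, integral_const_mul, integral_const_mul,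
          ind_int_eq, he3]
    _ = _ := by
        field_simp

/-- the properties of the Fourier transform of the main window -/
theorem Kw_spec : ∃ C₁ : ℝ, 1 ≤ C₁ ∧ ∀ B : ℕ, ∃ C : ℝ, 1 ≤ C ∧ ∀ ε : ℝ, 0 < ε → ε ≤ 1 →
    Continuous (gF (Kw ε)) ∧ Integrable (gF (Kw ε)) ∧
    (∀ x : ℝ, (Kw ε x : ℂ) = ∫ τ : ℝ, gF (Kw ε) τ * Complex.exp (τ * x * Complex.I)) ∧
    (∫ τ, ‖gF (Kw ε) τ‖) ≤ C₁ ∧
    Integrable (fun τ => ‖gF (Kw ε) τ‖ * (1 + |τ| * ε) ^ B) ∧
    (∫ τ, ‖gF (Kw ε) τ‖ * (1 + |τ| * ε) ^ B) ≤ C / ε := by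
  obtain ⟨D, hD1, hD⟩ := Kw_two
  obtain ⟨D', hD1', hD'⟩ := Kw_int_bd 2
  refine ⟨4 * (D' + D), by linarith, fun B => ?_⟩
  obtain ⟨E, hE1, hE⟩ := Kw_int_bd (B + 2)
  refine ⟨2 ^ (B + 2) * (2 * E), ?_, fun ε hε hε1 => ?_⟩
  · have : (1 : ℝ) ≤ 2 ^ (B + 2) := one_le_pow₀ (by norm_num)
    nlinarith
  have h1 := hE ε hε hε1 (B + 2) le_rfl
  have h0 := hE ε hε hε1 0 (by omega)
  rw [iteratedDeriv_zero, pow_zero, mul_one] at h0
  obtain ⟨g1, g2, g3, g4, g5⟩ := gF_spec B hε (Kw_smooth ε (B + 2))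
    (fun i _ => Kw_int hε hε1 i) h0 h1
  refine ⟨g1, g2, g3, ?_, g4, g5.trans (le_of_eq ?_)⟩
  · have h0' := hD' ε hε hε1 0 (by omega)
    rw [iteratedDeriv_zero, pow_zero, mul_one] at h0'
    obtain ⟨-, -, -, -, g6⟩ := gF_spec 0 one_pos (Kw_smooth ε 2)
      (fun i _ => Kw_int hε hε1 i) h0' (hD ε hε hε1)
    simp only [pow_zero, mul_one, zero_add, one_pow, one_mul, div_one] at g6
    refine g6.trans (le_of_eq ?_)
    norm_num
  · rw [inv_pow]
    field_simp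
    ring

end P004E.Two
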